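import Mathlib

/-!
Every open subgroup of a locally compact group contains an open subgroup in which all open
subgroups have finite index.
-/

open Topology Pointwise

namespace Vale.Agent.P011N.NL

/-- The theorem of van Dantzig. -/
theorem dantzig {Q : Type} [Group Q] [TopologicalSpace Q] [IsTopologicalGroup Q]
    [LocallyCompactSpace Q] [T2Space Q] [TotallyDisconnectedSpace Q] {O : Set Q} (hO : IsOpen O)
    (h1 : (1 : Q) ∈ O) :
    ∃ S : Subgroup Q, IsOpen (S : Set Q) ∧ IsCompact (S : Set Q) ∧ (S : Set Q) ⊆ O := by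
  obtain ⟨K, hK, h1K, hKO⟩ := exists_compact_subset hO h1
  obtain ⟨W, hW, h1W, hWK⟩ :=
    (loc_compact_Haus_tot_disc_of_zero_dim (H := Q)).exists_subset_of_mem_open h1K isOpen_interior
  have hWc : IsCompact W := hK.of_isClosed_subset hW.1 (hWK.trans interior_subset)
  obtain ⟨V, hV, hWV⟩ := compact_open_separated_mul_right hWc hW.2 subset_rfl
  let S : Subgroup Q :=
    { carrier := {g | (∀ w ∈ W, w * g ∈ W) ∧ ∀ w ∈ W, w * g⁻¹ ∈ W}
      one_mem' := by simp
      mul_mem' := fun {a b} ha hb => ⟨fun w hw => by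
          rw [← mul_assoc]
          exact hb.1 _ (ha.1 w hw), fun w hw => by
          rw [mul_inv_rev, ← mul_assoc]
          exact ha.2 _ (hb.2 w hw)⟩
      inv_mem' := fun {a} ha => ⟨ha.2, by simpa using ha.1⟩ }
  have hSo : IsOpen (S : Set Q) := by
    refine S.isOpen_of_mem_nhds (g := 1) ?_
    filter_upwards [hV, inv_mem_nhds_one Q hV] with g hg hg'
    exact ⟨fun w hw => hWV (Set.mul_mem_mul hw hg), fun w hw => hWV (Set.mul_mem_mul hw hg')⟩
  have hSW : (S : Set Q) ⊆ W := fun g hg => by simpa using hg.1 1 h1W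
  exact ⟨S, hSo, hWc.of_isClosed_subset (S.isClosed_of_isOpen hSo) hSW,
    hSW.trans (hWK.trans (interior_subset.trans hKO))⟩

variable {H : Type} [Group H] [TopologicalSpace H] [IsTopologicalGroup H]

instance normal_cc : (Subgroup.connectedComponentOfOne H).Normal := ⟨fun x hx g => by
  have hc : Continuous fun y : H => g * y * g⁻¹ := by fun_prop
  have h := hc.mapsTo_connectedComponent (1 : H) hx
  change g * x * g⁻¹ ∈ connectedComponent (1 : H)
  simpa using h⟩

theorem cc_le {U : Subgroup H} (hU : IsOpen (U : Set H)) :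
    Subgroup.connectedComponentOfOne H ≤ U :=
  IsClopen.connectedComponent_subset ⟨U.isClosed_of_isOpen hU, hU⟩ U.one_mem

theorem totDisc_quot : TotallyDisconnectedSpace (H ⧸ Subgroup.connectedComponentOfOne H) := by
  rw [totallyDisconnectedSpace_iff_connectedComponent_one]
  have hfib : ∀ y : H ⧸ Subgroup.connectedComponentOfOne H,
      IsConnected ((QuotientGroup.mk : H → _) ⁻¹' {y}) := by
    intro y
    obtain ⟨x, rfl⟩ := QuotientGroup.mk_surjective y
    have h1 : (QuotientGroup.mk : H → H ⧸ Subgroup.connectedComponentOfOne H) ⁻¹' {↑x} =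
        (fun z => x * z) '' connectedComponent (1 : H) := by
      ext z
      simp only [Set.mem_preimage, Set.mem_singleton_iff, Set.mem_image]
      rw [eq_comm, QuotientGroup.eq]
      exact ⟨fun h => ⟨x⁻¹ * z, h, by simp⟩, by
        rintro ⟨w, hw, rfl⟩
        rw [inv_mul_cancel_left]
        exact hw⟩
    rw [h1]
    exact isConnected_connectedComponent.image _ (by fun_prop)
  have h2 := (QuotientGroup.isQuotientMap_mk
    (Subgroup.connectedComponentOfOne H)).isCoinducing.image_connectedComponent hfib 1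
  rw [QuotientGroup.mk_one] at h2
  rw [← h2]
  ext y
  simp only [Set.mem_image, Set.mem_singleton_iff]
  constructor
  · rintro ⟨x, hx, rfl⟩
    exact (QuotientGroup.eq_one_iff x).2 hx
  · rintro rfl
    exact ⟨1, mem_connectedComponent, rfl⟩

/-- An open subgroup in which every open subgroup has finite index. -/
theorem exists_almost_conn [LocallyCompactSpace H] {M : Subgroup H} (hM : IsOpen (M : Set H)) :
    ∃ L : Subgroup H, IsOpen (L : Set H) ∧ L ≤ M ∧
      ∀ U : Subgroup H, IsOpen (U : Set H) → U.relIndex L ≠ 0 := by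
  have hcl : IsClosed (Subgroup.connectedComponentOfOne H : Set H) := isClosed_connectedComponent
  have := totDisc_quot (H := H)
  let π := QuotientGroup.mk' (Subgroup.connectedComponentOfOne H)
  have hπ : IsOpenMap π := QuotientGroup.isOpenMap_coe
  have hπc : Continuous π := QuotientGroup.continuous_mk
  have hker : ∀ U : Subgroup H, IsOpen (U : Set H) → (U.map π).comap π = U := fun U hU =>
    Subgroup.comap_map_eq_self (by rw [QuotientGroup.ker_mk']; exact cc_le hU)
  obtain ⟨S, hSo, hSc, hS⟩ := dantzig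
    (O := ((M.map π : Subgroup (H ⧸ Subgroup.connectedComponentOfOne H)) :
      Set (H ⧸ Subgroup.connectedComponentOfOne H))) (hπ _ hM) (M.map π).one_mem
  refine ⟨S.comap π, hSo.preimage hπc, ?_, fun U hU => ?_⟩
  · rw [← hker M hM]
    exact Subgroup.comap_mono hS
  · rw [← hker U hU]
    refine Subgroup.relIndex_comap_ne_zero π ?_
    have : CompactSpace S := isCompact_iff_compactSpace.1 hSc
    have : Finite (S ⧸ (U.map π).subgroupOf S) :=
      Subgroup.quotient_finite_of_isOpen _ ((hπ _ hU).preimage continuous_subtype_val)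
    exact Subgroup.index_ne_zero_of_finite

theorem exists_finite_cover {G : Type} [Group G] {U L : Subgroup G} (h : U.relIndex L ≠ 0) :
    ∃ F : Set G, F.Finite ∧ F ⊆ L ∧ ∀ x ∈ L, ∃ f ∈ F, f⁻¹ * x ∈ U := by
  have : Finite (L ⧸ U.subgroupOf L) := Nat.finite_of_card_ne_zero h
  refine ⟨Set.range fun q : L ⧸ U.subgroupOf L => (q.out : L).1, Set.finite_range _, ?_,
    fun x hx => ⟨_, ⟨((⟨x, hx⟩ : L) : L ⧸ U.subgroupOf L), rfl⟩, ?_⟩⟩
  · rintro _ ⟨q, rfl⟩
    exact q.out.2
  · have h1 := QuotientGroup.eq.1 (QuotientGroup.out_eq' ((⟨x, hx⟩ : L) : L ⧸ U.subgroupOf L))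
    exact h1

/-- Such a subgroup is compactly generated. -/
theorem exists_gen [LocallyCompactSpace H] {L : Subgroup H} (hL : IsOpen (L : Set H))
    (h : ∀ U : Subgroup H, IsOpen (U : Set H) → U.relIndex L ≠ 0) :
    ∃ C : Set H, IsCompact C ∧ Subgroup.closure C = L := by
  obtain ⟨K, hK, h1K, hKL⟩ := exists_compact_subset hL L.one_mem
  have hU : IsOpen (Subgroup.closure K : Set H) :=
    Subgroup.isOpen_of_mem_nhds (g := 1) _ (Filter.mem_of_superset
      (mem_interior_iff_mem_nhds.1 h1K) Subgroup.subset_closure)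
  obtain ⟨F, hF, hFL, hc⟩ := exists_finite_cover (h _ hU)
  refine ⟨K ∪ F, hK.union hF.isCompact, le_antisymm
    ((Subgroup.closure_le _).2 (Set.union_subset hKL hFL)) fun x hx => ?_⟩
  obtain ⟨f, hf, h1⟩ := hc x hx
  have h2 : x = f * (f⁻¹ * x) := by simp
  rw [h2]
  exact Subgroup.mul_mem _ (Subgroup.subset_closure (Or.inr hf))
    (Subgroup.closure_mono Set.subset_union_left h1)

/-- Such a subgroup has no real character when the closure of its commutator subgroup is open. -/
theorem no_char {L : Subgroup H} (hL : IsOpen (L : Set H))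
    (h : ∀ U : Subgroup H, IsOpen (U : Set H) → U.relIndex L ≠ 0)
    (hc : IsOpen ((⁅L, L⁆ : Subgroup H).topologicalClosure : Set H))
    (χ : L →* Multiplicative ℝ) (hχ : Continuous χ) (x : L) : χ x = 1 := by
  have hcl : IsClosed (χ.ker.map L.subtype : Set H) := by
    have h1 : IsClosed (χ.ker : Set L) := isClosed_singleton.preimage hχ
    exact (L.isClosed_of_isOpen hL).isClosedEmbedding_subtypeVal.isClosedMap _ h1
  have hle : (⁅L, L⁆ : Subgroup H) ≤ χ.ker.map L.subtype := by
    refine Subgroup.commutator_le.2 fun a ha b hb => ?_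
    refine ⟨⟨a, ha⟩ * ⟨b, hb⟩ * ⟨a, ha⟩⁻¹ * ⟨b, hb⟩⁻¹, ?_, rfl⟩
    rw [SetLike.mem_coe, MonoidHom.mem_ker, map_mul, map_mul, map_mul, map_inv, map_inv,
      mul_inv_cancel_comm, mul_inv_cancel]
  obtain ⟨n, hn, -, h1⟩ := Subgroup.exists_pow_mem_of_relIndex_ne_zero (h _ hc) x.2
  obtain ⟨y, hy, h2⟩ := Subgroup.topologicalClosure_minimal _ hle hcl h1.1
  have h3 : y = x ^ n := Subtype.ext h2
  rw [h3, SetLike.mem_coe, MonoidHom.mem_ker, map_pow] at hy
  have h4 : n • Multiplicative.toAdd (χ x) = 0 := congrArg Multiplicative.toAdd hy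
  have h5 : Multiplicative.toAdd (χ x) = 0 := by simpa [hn.ne'] using h4
  exact h5

end Vale.Agent.P011N.NL
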