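import Vale.Agent.P011N.Iface
import Vale.Agent.P011N.NL.Dantzig

/-!
The local form of the normal subgroup theorem from the compactly generated case.
-/

open Topology

namespace Vale.Agent.P011N.NL

variable {H : Type} [Group H] [TopologicalSpace H] [IsTopologicalGroup H]

/-- The trace of a lattice on an open subgroup is a lattice. -/
theorem lat_sub {Γ N : Subgroup H} (h : Lat Γ N) {L : Subgroup H} (hL : IsOpen (L : Set H)) :
    Lat (Γ.subgroupOf L) (N.subgroupOf L) := by
  have hce : IsClosedEmbedding (Subtype.val : L → H) :=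
    (L.isClosed_of_isOpen hL).isClosedEmbedding_subtypeVal
  refine ⟨fun C hC => ?_, ?_, fun γ hγ n hn => h.norm γ.1 hγ n.1 hn, fun n hn => ?_⟩
  · refine ((h.disc _ (hC.image continuous_subtype_val)).preimage
      Subtype.val_injective.injOn).subset ?_
    rintro x ⟨h1, h2⟩
    exact ⟨⟨x, h1, rfl⟩, h2⟩
  · obtain ⟨K, hK, hc⟩ := h.coc
    have := QuotientGroup.discreteTopology hL
    have hT : ((QuotientGroup.mk : H → H ⧸ L) '' K).Finite :=
      (hK.image QuotientGroup.continuous_mk).finite_of_discrete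
    have hδ : ∀ q : H ⧸ L, ∃ δ ∈ Γ, (∃ γ ∈ Γ, (γ : H ⧸ L) = q) → (δ : H ⧸ L) = q := by
      intro q
      by_cases hq : ∃ γ ∈ Γ, (γ : H ⧸ L) = q
      · obtain ⟨γ, h1, h2⟩ := hq
        exact ⟨γ, h1, fun _ => h2⟩
      · exact ⟨1, Γ.one_mem, fun h1 => absurd h1 hq⟩
    choose δ hδ1 hδ2 using hδ
    refine ⟨Subtype.val ⁻¹' ⋃ q ∈ (QuotientGroup.mk : H → H ⧸ L) '' K,
      (fun x => (δ q)⁻¹ * x) '' K, hce.isCompact_preimage
        (hT.isCompact_biUnion fun q _ => hK.image (by fun_prop)), fun x => ?_⟩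
    obtain ⟨γ, hγ, hk⟩ := hc x.1
    have h1 : ((γ⁻¹ : H) : H ⧸ L) = ((γ⁻¹ * x.1 : H) : H ⧸ L) :=
      QuotientGroup.eq.2 (by simp)
    have h2 := hδ2 ((γ⁻¹ * x.1 : H) : H ⧸ L) ⟨γ⁻¹, Γ.inv_mem hγ, h1⟩
    have h3 : γ * δ ((γ⁻¹ * x.1 : H) : H ⧸ L) ∈ L := by
      simpa using QuotientGroup.eq.1 (h1.trans h2.symm)
    refine ⟨⟨_, h3⟩, Γ.mul_mem hγ (hδ1 _), ?_⟩
    simp only [Set.mem_preimage, Set.mem_iUnion]
    exact ⟨((γ⁻¹ * x.1 : H) : H ⧸ L), ⟨_, hk, rfl⟩, _, hk, by simp [mul_assoc]⟩
  · have h1 : (Γ.subgroupOf L).comap (MulAut.conj n).toMonoidHom =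
        (Γ.comap (MulAut.conj n.1).toMonoidHom).comap L.subtype := by
      ext y
      simp [Subgroup.mem_subgroupOf]
    rw [h1]
    exact Subgroup.relIndex_comap_ne_zero L.subtype (h.comm n.1 hn)

/-- The union of finitely many conjugates. -/
def conjs (C : Set H) (F : Finset H) : Set H := ⋃ g ∈ F, (fun x => g * x * g⁻¹) '' C

omit [TopologicalSpace H] [IsTopologicalGroup H] in
theorem conj_mem {C : Set H} {F : Finset H} {g x : H} (hg : g ∈ F)
    (hx : x ∈ Subgroup.closure C) : g * x * g⁻¹ ∈ Subgroup.closure (conjs C F) := by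
  have h1 : Subgroup.closure C ≤
      (Subgroup.closure (conjs C F)).comap (MulAut.conj g).toMonoidHom := by
    refine (Subgroup.closure_le _).2 fun y hy => Subgroup.subset_closure ?_
    simp only [conjs, Set.mem_iUnion]
    exact ⟨g, hg, y, hy, rfl⟩
  exact h1 hx

omit [TopologicalSpace H] [IsTopologicalGroup H] in
theorem conjs_mono (C : Set H) {F F' : Finset H} (h : F ⊆ F') :
    Subgroup.closure (conjs C F) ≤ Subgroup.closure (conjs C F') :=
  Subgroup.closure_mono (Set.biUnion_subset_biUnion_left (t := fun g => (fun x => g * x * g⁻¹) '' C)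
    (s := (F : Set H)) (s' := (F' : Set H)) h)

/-- The local form of the normal subgroup theorem. -/
theorem nstloc (hN : NST) : NSTloc := by
  classical
  intro H _ _ _ _ _ _ Γ N hlat hop hnorm hcomm
  obtain ⟨L, hL, hLN, hfin⟩ := exists_almost_conn hop
  obtain ⟨C₀, hC₀, rfl⟩ := exists_gen hL hfin
  have hle : ∀ F : Finset H,
      Subgroup.closure C₀ ≤ Subgroup.closure (conjs C₀ (insert 1 F)) := fun F x hx => by
    simpa using conj_mem (F := insert 1 F) (Finset.mem_insert_self 1 F) hx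
  have hopen : ∀ F : Finset H, IsOpen (Subgroup.closure (conjs C₀ (insert 1 F)) : Set H) :=
    fun F => Subgroup.isOpen_mono (hle F) hL
  refine ⟨Subgroup.normalClosure (Subgroup.closure C₀ : Set H),
    Subgroup.isOpen_mono Subgroup.le_normalClosure hL, inferInstance, fun C hC hCH => ?_⟩
  have hcov : ∀ x ∈ Subgroup.normalClosure (Subgroup.closure C₀ : Set H),
      ∃ F : Finset H, x ∈ Subgroup.closure (conjs C₀ (insert 1 F)) := by
    intro x hx
    induction hx using Subgroup.closure_induction with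
    | mem x hx =>
      obtain ⟨y, hy, hxy⟩ := Group.mem_conjugatesOfSet_iff.1 hx
      obtain ⟨g, rfl⟩ := isConj_iff.1 hxy
      exact ⟨{g}, conj_mem (by simp) hy⟩
    | one => exact ⟨∅, Subgroup.one_mem _⟩
    | mul x y _ _ hx hy =>
      obtain ⟨F, hF⟩ := hx
      obtain ⟨F', hF'⟩ := hy
      exact ⟨F ∪ F', Subgroup.mul_mem _
        (conjs_mono C₀ (Finset.insert_subset_insert 1 Finset.subset_union_left) hF)
        (conjs_mono C₀ (Finset.insert_subset_insert 1 Finset.subset_union_right) hF')⟩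
    | inv x _ hx =>
      obtain ⟨F, hF⟩ := hx
      exact ⟨F, Subgroup.inv_mem _ hF⟩
  obtain ⟨F, hF⟩ := hC.elim_directed_cover
    (fun F : Finset H => (Subgroup.closure (conjs C₀ (insert 1 F)) : Set H)) hopen
    (fun x hx => Set.mem_iUnion.2 (hcov x (hCH hx)))
    (fun F F' => ⟨F ∪ F',
      conjs_mono C₀ (Finset.insert_subset_insert 1 Finset.subset_union_left),
      conjs_mono C₀ (Finset.insert_subset_insert 1 Finset.subset_union_right)⟩)
  have hL' := hopen F
  generalize insert 1 F = F₁ at hF hL'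
  have hce : IsClosedEmbedding (Subtype.val : Subgroup.closure (conjs C₀ F₁) → H) :=
    (Subgroup.isClosed_of_isOpen _ hL').isClosedEmbedding_subtypeVal
  have := hce.locallyCompactSpace
  have := hce.isEmbedding.secondCountableTopology
  have hLN' : Subgroup.closure (conjs C₀ F₁) ≤ N.topologicalClosure := by
    refine (Subgroup.closure_le _).2 fun x hx => ?_
    simp only [conjs, Set.mem_iUnion] at hx
    obtain ⟨g, -, y, hy, rfl⟩ := hx
    exact hnorm.conj_mem y (hLN (Subgroup.subset_closure hy)) g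
  have hgen : Subgroup.closure ((Subgroup.closure (conjs C₀ F₁)).subtype ⁻¹' conjs C₀ F₁) = ⊤ :=
    Subgroup.closure_preimage_eq_top _
  have key := hN (Subgroup.closure (conjs C₀ F₁)) (Γ.subgroupOf _) (N.subgroupOf _)
    (lat_sub hlat hL') ?_ ⟨_, hce.isCompact_preimage
      (F₁.isCompact_biUnion fun g _ => hC₀.image (by fun_prop)), hgen⟩ ?_
  · rw [Subgroup.subgroupOf, Subgroup.relIndex_comap, Subgroup.subgroupOf_map_subtype] at key
    exact fun h => key (Subgroup.relIndex_eq_zero_of_le_right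
      (inf_le_inf_left Γ ((Subgroup.closure_le _).2 hF)) h)
  · refine Subtype.dense_iff.2 fun x hx => ?_
    refine closure_mono ?_ (hL'.inter_closure ⟨hx, hLN' hx⟩)
    rintro y ⟨h1, h2⟩
    exact ⟨⟨y, h1⟩, h2, rfl⟩
  · intro χ hχ x
    have h1 : (⊤ : Subgroup (Subgroup.closure (conjs C₀ F₁))) ≤ χ.ker := by
      rw [← hgen]
      refine (Subgroup.closure_le _).2 fun x hx => ?_
      obtain ⟨g, hg, y, hy, hxy⟩ := Set.mem_iUnion₂.1 (show x.1 ∈ conjs C₀ F₁ from hx)
      let c : Subgroup.closure C₀ →* Subgroup.closure (conjs C₀ F₁) :=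
        ((MulAut.conj g).toMonoidHom.comp (Subgroup.closure C₀).subtype).codRestrict _
          fun z => conj_mem hg z.2
      have hc : Continuous c := Continuous.subtype_mk
        (f := fun z : Subgroup.closure C₀ => g * z.1 * g⁻¹) (by fun_prop) _
      have h2 := no_char hL hfin (hcomm _ hL) (χ.comp c) (hχ.comp hc)
        ⟨y, Subgroup.subset_closure hy⟩
      have h3 : c ⟨y, Subgroup.subset_closure hy⟩ = x := Subtype.ext hxy
      rw [MonoidHom.comp_apply, h3] at h2
      exact h2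
    exact h1 (Subgroup.mem_top x)

end Vale.Agent.P011N.NL
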